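import Vale.Agent.P160.H884.Final

open Filter Vale.Agent.P160.H884

/-- **P160.** (1) `q_n ^ (1/n) → 1/2`, with the upper bound `c ^ n` for every `c > 1/2` and the lower
bound `(1 - o(1)) n² 2⁻ⁿ`. (2) The rate is `1/2` for every alphabet `{a, b}` with `a = 0`, `b = 0`,
`a = -b` or `a / b` irrational. (3) The rate is `1/2` for sign matrices with exactly `m_n` entries `-1`
on and above the diagonal, `m_n = n² / 4 + o(n^(3/2))`. (4) For `κ < 1` all but at most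
`2 n² 2^(κ n)` primes divide the determinant with probability less than `2^(-κ n)`. -/
theorem Vale.Agent.Results.P160.AlphabetsSlicesPrimes.result :
    (Tendsto (fun n : ℕ => q n ^ (1 / (n : ℝ))) atTop (nhds (1 / 2)) ∧
      (∀ c : ℝ, 1 / 2 < c → ∀ᶠ n : ℕ in atTop, q n ≤ c ^ n) ∧
      (∀ ε : ℝ, 0 < ε → ∀ᶠ n : ℕ in atTop, (1 - ε) * (n : ℝ) ^ 2 * (1 / 2) ^ n ≤ q n)) ∧
    (∀ a b : ℝ, a ≠ b → (a = 0 ∨ b = 0 ∨ a = -b ∨ Irrational (a / b)) →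
      Tendsto (fun n : ℕ => pr (TwoPoint a b n) {A | A.det = 0} ^ (1 / (n : ℝ))) atTop (nhds (1 / 2))) ∧
    (∀ m : ℕ → ℕ,
      Tendsto (fun n : ℕ => ((m n : ℝ) - (n : ℝ) ^ 2 / 4) / (n : ℝ) ^ (3 / 2 : ℝ)) atTop (nhds 0) →
      Tendsto (fun n : ℕ => pr (Slice n (m n)) {A | A.det = 0} ^ (1 / (n : ℝ))) atTop (nhds (1 / 2))) ∧
    (∀ κ : ℝ, κ < 1 → ∀ᶠ n : ℕ in atTop,
      {p : ℕ | p.Prime ∧ (2 : ℝ) ^ (-(κ * n)) ≤
        pr (SymmetricSignMatrices n) {A | (p : ℤ) ∣ A.det}}.Finite ∧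
      ({p : ℕ | p.Prime ∧ (2 : ℝ) ^ (-(κ * n)) ≤
        pr (SymmetricSignMatrices n) {A | (p : ℤ) ∣ A.det}}.ncard : ℝ) ≤
        2 * n ^ 2 * (2 : ℝ) ^ (κ * n)) :=
  main
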