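import Vale.Agent.P160.H462.Main

open Finset Filter Topology Vale.Agent.P160.H462

/-- **P160, robust and universal form.** (1) `q_n ^ (1/n) → 1/2`. Then, for biased entries with total
squared bias `o(n)` off the diagonal and an arbitrary (for example deterministic) diagonal whose mean
trace is `o(n)`, for sign matrices and for 0/1 matrices: (2) the rate is still `1/2` for the event that
`o(n / log n)` changes of entries and the deletion of `o(n)` rows with the same columns can lead to a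
singular matrix, or that some principal submatrix has rank less than `m - 6 √n` modulo some prime;
(3) rank deficiency of all principal submatrices of order at least `(1 - β) n`. -/
theorem Vale.Agent.Results.P160.RobustRate.result :
    ((Tendsto (fun n : ℕ => q n ^ (1 / (n : ℝ))) atTop (𝓝 (1 / 2)) ∧
      ∀ c : ℝ, 1 / 2 < c → ∀ᶠ n : ℕ in atTop, q n ≤ c ^ n) ∧
      ∀ n : ℕ, q n = prob (0 : Sym2 (Fin n) → ℝ) {b | (signMat b).det = 0}) ∧
    ∀ δ : ∀ n, Sym2 (Fin n) → ℝ, (∀ n e, |δ n e| ≤ 1) →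
      Tendsto (fun n : ℕ => (∑ e ∈ univ.filter (fun e : Sym2 (Fin n) => ¬ e.IsDiag), δ n e ^ 2) / n)
        atTop (𝓝 0) →
      Tendsto (fun n : ℕ => (∑ i : Fin n, δ n s(i, i)) / n) atTop (𝓝 0) →
      (∀ k l : ℕ → ℕ, Tendsto (fun n : ℕ => (k n : ℝ) * Real.log n / n) atTop (𝓝 0) →
        Tendsto (fun n : ℕ => (l n : ℝ) / n) atTop (𝓝 0) →
        Tendsto (fun n : ℕ => prob (δ n) (Fragile signMat (k n) (l n) ∪ LowRank signMat 2) ^
          (1 / (n : ℝ))) atTop (𝓝 (1 / 2)) ∧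
        Tendsto (fun n : ℕ => prob (δ n) (Fragile bitMat (k n) (l n) ∪ LowRank bitMat 1) ^
          (1 / (n : ℝ))) atTop (𝓝 (1 / 2))) ∧
      ∀ β : ℝ, 0 ≤ β → β ≤ 1 / 2 → ∀ ε : ℝ, 0 < ε → ∀ᶠ n : ℕ in atTop, ∀ k : ℕ, 1 ≤ k →
        prob (δ n) (Deficient signMat β k) ≤ (2 : ℝ) ^
          (-((1 - β - Real.binEntropy β / Real.log 2 - ε) * n + (1 / 2 - ε) * (k : ℝ) ^ 2)) ∧
        prob (δ n) (Deficient bitMat β k) ≤ (2 : ℝ) ^
          (-((1 - β - Real.binEntropy β / Real.log 2 - ε) * n + (1 / 2 - ε) * (k : ℝ) ^ 2)) :=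
  main
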